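import Vale.Agent.P290S.Br4

/-! General elliptic K3 surfaces, families and Kummer surfaces. -/

namespace Vale.Agent.Results.P290.All

open Vale.Agent.P290S

theorem result :
    (∃ P : MvPolynomial (Fin 9 ⊕ Fin 13) ℂ, P ≠ 0 ∧
      (∀ (X : Type) [MetricSpace X] [CompactSpace X] [ChartedSpace C2 X], IsSurface X →
        ∀ (σ : X → C2 → C2 → ℂ) (π : X → P1), IsEll σ π → (∃ α β, HasInv σ π α β) ∧
          ∀ α β, HasInv σ π α β → MvPolynomial.eval (Sum.elim α β) P ≠ 0 → IsOka X) ∧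
      (∀ (α : Fin 9 → ℂ) (β : Fin 13 → ℂ), MvPolynomial.eval (Sum.elim α β) P ≠ 0 →
        ∃ (X : Type) (_ : MetricSpace X) (_ : CompactSpace X) (_ : ChartedSpace C2 X),
          IsSurface X ∧ ∃ (σ : X → C2 → C2 → ℂ) (π : X → P1), IsEll σ π ∧ HasInv σ π α β) ∧
      ∀ (T Y : Type) [NormedAddCommGroup T] [NormedSpace ℂ T] [FiniteDimensional ℂ T]
        [MetricSpace Y] [SecondCountableTopology Y] [ChartedSpace (C2 × T) Y] (B : Set T)
        (p : Y → T) (X : T → Type) [∀ t, MetricSpace (X t)] [∀ t, ChartedSpace C2 (X t)]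
        (j : ∀ t, X t → Y), IsFamily B p X j → IsOpen B →
        B ⊆ closure {t ∈ B | ∃ (σ : X t → C2 → C2 → ℂ) (π : X t → P1) (α : Fin 9 → ℂ)
          (β : Fin 13 → ℂ), IsEll σ π ∧ HasInv σ π α β ∧
            MvPolynomial.eval (Sum.elim α β) P ≠ 0} →
        ∀ᶠ t in residual T, t ∈ B → IsOka (X t)) ∧
    (∀ (X : Type) [MetricSpace X] [CompactSpace X] [ChartedSpace C2 X], IsSurface X →
      (∃ σ : X → C2 → C2 → ℂ, IsSympl σ) → TwoPencils X → IsOka X) ∧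
    (∀ (X : Type) [MetricSpace X] [CompactSpace X] [ChartedSpace C2 X], IsSurface X →
      IsWehler X ∨ IsDouble X ∨ IsDiag X ∨ IsSplitQ X → IsOka X) ∧
    (∀ t : Fin 4 → ℂ × ℂ, LinearIndependent ℝ t →
      ∃ (X : Type) (_ : MetricSpace X) (_ : CompactSpace X) (_ : ChartedSpace C2 X),
        IsSurface X ∧ ∃ (q : ℂ × ℂ → X) (e : ℂ × ℂ → ℂ × ℂ × ℂ → X),
          IsKummer (Submodule.span ℤ (Set.range t)) q e) ∧
    ∃ G ∈ residual (Fin 4 → ℂ × ℂ), ∀ t : Fin 4 → ℂ × ℂ, LinearIndependent ℝ t →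
      (t ∈ G ∨ ∃ (v : ℂ × ℂ) (τ : ℂ), v ≠ 0 ∧ τ.im ≠ 0 ∧ v ∈ Submodule.span ℤ (Set.range t) ∧
        τ • v ∈ Submodule.span ℤ (Set.range t)) →
      ∀ (X : Type) [MetricSpace X] [ChartedSpace C2 X], IsSurface X →
        ∀ (q : ℂ × ℂ → X) (e : ℂ × ℂ → ℂ × ℂ × ℂ → X),
          IsKummer (Submodule.span ℤ (Set.range t)) q e → IsOka X := by
  obtain ⟨P, hP, h1, h2⟩ := main3
  refine ⟨⟨P, hP, h1, h2, fun T Y _ _ _ _ _ _ B p X _ _ j h hB hd =>
    main4 T Y B p X j h hB (hd.trans (closure_mono fun t ht => ⟨ht.1, ?_⟩))⟩,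
    main1.1, fun X _ _ _ hX h => main2 X hX (by tauto), main5⟩
  obtain ⟨σ, π, α, β, e1, e2, e3⟩ := ht.2
  have := (h.2.2 t ht.1).2.1
  exact (h1 (X t) (h.2.2 t ht.1).1 σ π e1).2 α β e2 e3

end Vale.Agent.Results.P290.All
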