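import Vale.Agent.P290S.Br3

/-! A general elliptic K3 surface is Oka. -/

namespace Vale.Agent.Results.P290.Generic

open Vale.Agent.P290S

theorem result :
    (∃ P : MvPolynomial (Fin 9 ⊕ Fin 13) ℂ, P ≠ 0 ∧
      (∀ (X : Type) [MetricSpace X] [CompactSpace X] [ChartedSpace C2 X], IsSurface X →
        ∀ (σ : X → C2 → C2 → ℂ) (π : X → P1), IsEll σ π → (∃ α β, HasInv σ π α β) ∧
          ∀ α β, HasInv σ π α β → MvPolynomial.eval (Sum.elim α β) P ≠ 0 → IsOka X) ∧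
      ∀ (α : Fin 9 → ℂ) (β : Fin 13 → ℂ), MvPolynomial.eval (Sum.elim α β) P ≠ 0 →
        ∃ (X : Type) (_ : MetricSpace X) (_ : CompactSpace X) (_ : ChartedSpace C2 X),
          IsSurface X ∧ ∃ (σ : X → C2 → C2 → ℂ) (π : X → P1), IsEll σ π ∧ HasInv σ π α β) ∧
    (∀ (X : Type) [MetricSpace X] [CompactSpace X] [ChartedSpace C2 X], IsSurface X →
      (∃ σ : X → C2 → C2 → ℂ, IsSympl σ) → TwoPencils X → IsOka X) ∧
    (∀ (X X' : Type) [MetricSpace X] [CompactSpace X] [ChartedSpace C2 X] [MetricSpace X']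
      [CompactSpace X'] [ChartedSpace C2 X'], IsSurface X → IsSurface X' → Twist X X' →
      (IsOka X ↔ IsOka X')) ∧
    ∀ (X : Type) [MetricSpace X] [CompactSpace X] [ChartedSpace C2 X], IsSurface X →
      IsWehler X ∨ IsDouble X ∨ IsKumProd X ∨ IsDiag X ∨ IsSplitQ X → IsOka X :=
  ⟨main3, main1.1, main1.2.1, main2⟩

end Vale.Agent.Results.P290.Generic
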